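import Vale.Agent.P004G.H1a
import Vale.Agent.P004.H1

/-!
# P004G, module H1: the positivity step and Poisson summation
-/

open Real MeasureTheory Set

namespace P004G.H1

export P004.H1 (Gk_decay cj cj_nonneg summable_cj qq Gk_bound abs_moebius_le qq_ne_zero
  abs_term_le gcd_facts)

variable [Crv]

/-- the terms after Poisson summation -/
noncomputable def Bt (H : ℝ) (r : ℕ) (u : ℝ) (p : ℕ × ℕ) (j : ℤ) : ℝ :=
  wt r u p.1 * wt r u p.2 * ∑ d ∈ (p.1.gcd p.2).divisors,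
    (ArithmeticFunction.moebius d : ℝ) / (d * √(qq p : ℝ)) *
      (if (d : ℤ) ∣ j then chi j (qq p) * Gk (|(j : ℝ)| * H / ((d : ℝ) ^ 2 * (qq p : ℝ))) else 0)

/-- the summable majorant in `p` -/
noncomputable def Wp (r : ℕ) (u : ℝ) (p : ℕ × ℕ) : ℝ :=
  (|wt r u p.1| * (p.1 : ℝ) ^ 1) * (|wt r u p.2| * (p.2 : ℝ) ^ 0) +
    (|wt r u p.1| * (p.1 : ℝ) ^ 3) * (|wt r u p.2| * (p.2 : ℝ) ^ 2)

theorem Wp_nonneg (r : ℕ) (u : ℝ) (p : ℕ × ℕ) : 0 ≤ Wp r u p := by
  unfold Wp; positivity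

theorem summable_Wp (hC : StCoef) (r : ℕ) {u : ℝ} (hu : 0 < u) : Summable (Wp r u) := by
  refine Summable.add ?_ ?_
  · exact (summable_wt hC r hu 1).mul_of_nonneg (summable_wt hC r hu 0)
      (fun n => by positivity) (fun n => by positivity)
  · exact (summable_wt hC r hu 3).mul_of_nonneg (summable_wt hC r hu 2)
      (fun n => by positivity) (fun n => by positivity)

theorem abs_Bt_le (hK : StKer) {H : ℝ} (hH : 0 < H) : ∃ M : ℝ, 0 < M ∧
    ∀ (r : ℕ) (u : ℝ) (p : ℕ × ℕ) (j : ℤ), |Bt H r u p j| ≤ M * (Wp r u p * cj j) := by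
  obtain ⟨M, hM, hb⟩ := abs_term_le hK hH
  refine ⟨M, hM, fun r u p j => ?_⟩
  by_cases h1 : p.1 = 0
  · have : wt r u p.1 = 0 := by
      rw [h1]; unfold wt; rw [if_neg]; simp
    unfold Bt
    rw [this]
    simp only [zero_mul, abs_zero]
    have := Wp_nonneg r u p
    have := cj_nonneg j
    positivity
  by_cases h2 : p.2 = 0
  · have : wt r u p.2 = 0 := by
      rw [h2]; unfold wt; rw [if_neg]; simp
    unfold Bt
    rw [this]
    simp only [zero_mul, mul_zero, abs_zero]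
    have := Wp_nonneg r u p
    have := cj_nonneg j
    positivity
  unfold Bt
  rw [abs_mul, abs_mul]
  have h3 : |∑ d ∈ (p.1.gcd p.2).divisors, (ArithmeticFunction.moebius d : ℝ) /
      (d * √(qq p : ℝ)) * (if (d : ℤ) ∣ j then chi j (qq p) *
      Gk (|(j : ℝ)| * H / ((d : ℝ) ^ 2 * (qq p : ℝ))) else 0)| ≤
      (p.1 : ℝ) * (M * (1 + ((p.1 : ℝ) * p.2) ^ 2) * cj j) := by
    refine (Finset.abs_sum_le_sum_abs _ _).trans ?_
    refine (Finset.sum_le_card_nsmul _ _ _ fun d hd => hb p j d h1 h2 hd).trans ?_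
    rw [nsmul_eq_mul]
    have h4 : ((p.1.gcd p.2).divisors.card : ℝ) ≤ (p.1 : ℝ) := by
      have : (p.1.gcd p.2).divisors.card ≤ p.1 :=
        (Nat.card_divisors_le_self _).trans
          (Nat.le_of_dvd (Nat.pos_of_ne_zero h1) (Nat.gcd_dvd_left _ _))
      exact_mod_cast this
    refine mul_le_mul_of_nonneg_right h4 ?_
    have := cj_nonneg j
    positivity
  calc |wt r u p.1| * |wt r u p.2| * _ ≤ |wt r u p.1| * |wt r u p.2| *
        ((p.1 : ℝ) * (M * (1 + ((p.1 : ℝ) * p.2) ^ 2) * cj j)) :=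
        mul_le_mul_of_nonneg_left h3 (by positivity)
    _ = M * (Wp r u p * cj j) := by unfold Wp; ring

theorem summable_Bt (hC : StCoef) (hK : StKer) {H : ℝ} (hH : 0 < H) (r : ℕ) {u : ℝ} (hu : 0 < u) :
    Summable (Function.uncurry (Bt H r u)) := by
  obtain ⟨M, hM, hb⟩ := abs_Bt_le hK hH
  have h1 := ((summable_Wp hC r hu).mul_of_nonneg summable_cj (Wp_nonneg r u) cj_nonneg).mul_left M
  refine Summable.of_norm_bounded h1 fun x => ?_
  exact hb r u x.1 x.2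

/-- Poisson summation for one pair -/
theorem pair_eq (hC : StCoef) (hP : StPair) (hK : StKer) {H : ℝ} (hH : 0 < H) (r : ℕ)
    (u : ℝ) (p : ℕ × ℕ) :
    wt r u p.1 * wt r u p.2 * ∑' h : ℤ, ah H h * chi h (p.1 * p.2) =
      H * ∑' j : ℤ, Bt H r u p j := by
  by_cases h1 : wt r u p.1 = 0
  · have : ∀ j, Bt H r u p j = 0 := fun j => by unfold Bt; rw [h1]; ring
    simp [this, h1]
  by_cases h2 : wt r u p.2 = 0
  · have : ∀ j, Bt H r u p j = 0 := fun j => by unfold Bt; rw [h2]; ring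
    simp [this, h2]
  obtain ⟨s1, -, c1⟩ := wt_ne_zero h1
  obtain ⟨s2, -, c2⟩ := wt_ne_zero h2
  have n1 : p.1 ≠ 0 := s1.ne_zero
  have n2 : p.2 ≠ 0 := s2.ne_zero
  have key := hP p.1 p.2 s1 s2 (Good.of_ca c1).odd (Good.of_ca c2).odd H hH
  rw [integral_eq_tsum hH] at key
  rw [key]
  obtain ⟨M, hM, hb⟩ := abs_term_le hK hH
  have hsum : ∀ d ∈ (p.1.gcd p.2).divisors, Summable fun j : ℤ =>
      (ArithmeticFunction.moebius d : ℝ) / (d * √(qq p : ℝ)) *
      (if (d : ℤ) ∣ j then chi j (qq p) *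
        Gk (|(j : ℝ)| * H / ((d : ℝ) ^ 2 * (qq p : ℝ))) else 0) := by
    intro d hd
    refine Summable.of_norm_bounded (summable_cj.mul_left (M * (1 + ((p.1 : ℝ) * p.2) ^ 2)))
      fun j => ?_
    exact hb p j d n1 n2 hd
  have e1 : ∑' j : ℤ, Bt H r u p j = wt r u p.1 * wt r u p.2 *
      ∑ d ∈ (p.1.gcd p.2).divisors, (ArithmeticFunction.moebius d : ℝ) / (d * √(qq p : ℝ)) *
        ∑' j : ℤ, (if (d : ℤ) ∣ j then chi j (qq p) *
          Gk (|(j : ℝ)| * H / ((d : ℝ) ^ 2 * (qq p : ℝ))) else 0) := by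
    unfold Bt
    rw [tsum_mul_left, Summable.tsum_finsetSum hsum]
    congr 1
    refine Finset.sum_congr rfl fun d _ => ?_
    rw [tsum_mul_left]
  rw [e1]
  unfold qq
  ring

/-- the first double series -/
theorem summable_first (hC : StCoef) {H : ℝ} (hH : 0 < H) (r : ℕ) {u : ℝ} (hu : 0 < u) :
    Summable (Function.uncurry fun (h : ℤ) (p : ℕ × ℕ) =>
      ah H h * (wt r u p.1 * wt r u p.2 * chi h (p.1 * p.2))) := by
  have h0 := summable_wt hC r hu 0
  have h1 : Summable fun p : ℕ × ℕ => |wt r u p.1| * |wt r u p.2| := by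
    have := h0.mul_of_nonneg h0 (fun n => by positivity) (fun n => by positivity)
    simpa using this
  have h2 := (summable_ah hH).mul_of_nonneg h1 (ah_nonneg H) (fun n => by positivity)
  refine Summable.of_norm_bounded h2 fun x => ?_
  simp only [Function.uncurry]
  rw [norm_mul, norm_mul, norm_mul, Real.norm_eq_abs, Real.norm_eq_abs, Real.norm_eq_abs,
    Real.norm_eq_abs, abs_of_nonneg (ah_nonneg H x.1)]
  refine mul_le_mul_of_nonneg_left ?_ (ah_nonneg H x.1)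
  exact mul_le_of_le_one_right (by positivity) (abs_chi_le _ _)

theorem Uf_sq (hC : StCoef) (h : ℤ) (r : ℕ) {u : ℝ} (hu : 0 < u) :
    Uf h r u ^ 2 = ∑' p : ℕ × ℕ, wt r u p.1 * wt r u p.2 * chi h (p.1 * p.2) := by
  have h0 : Summable fun n : ℕ => ‖wt r u n * chi h n‖ := by
    have := summable_wt hC r hu 0
    refine Summable.of_nonneg_of_le (fun n => norm_nonneg _) (fun n => ?_) this
    rw [norm_mul, Real.norm_eq_abs, Real.norm_eq_abs, pow_zero, mul_one]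
    exact mul_le_of_le_one_right (abs_nonneg _) (abs_chi_le _ _)
  rw [Uf_eq, sq, tsum_mul_tsum_of_summable_norm h0 h0]
  refine tsum_congr fun p => ?_
  by_cases h1 : p.1 = 0
  · have : wt r u p.1 = 0 := by
      rw [h1]; unfold wt; rw [if_neg]; simp
    rw [this]; ring
  by_cases h2 : p.2 = 0
  · have : wt r u p.2 = 0 := by
      rw [h2]; unfold wt; rw [if_neg]; simp
    rw [this]; ring
  rw [chi_mul h h1 h2]
  ring

/-- `S = H ∑_j ∑_p Bt` -/
theorem S_eq (hC : StCoef) (hP : StPair) (hK : StKer) {H : ℝ} (hH : 0 < H) (r : ℕ)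
    {u : ℝ} (hu : 0 < u) :
    ∑' h : ℤ, ah H h * Uf h r u ^ 2 = H * ∑' j : ℤ, ∑' p : ℕ × ℕ, Bt H r u p j := by
  have e1 : ∑' h : ℤ, ah H h * Uf h r u ^ 2 =
      ∑' (h : ℤ) (p : ℕ × ℕ), ah H h * (wt r u p.1 * wt r u p.2 * chi h (p.1 * p.2)) := by
    refine tsum_congr fun h => ?_
    rw [Uf_sq hC h r hu, tsum_mul_left]
  rw [e1, ← (summable_first hC hH r hu).tsum_comm]
  have e2 : ∀ p : ℕ × ℕ, ∑' h : ℤ, ah H h * (wt r u p.1 * wt r u p.2 * chi h (p.1 * p.2)) =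
      H * ∑' j : ℤ, Bt H r u p j := by
    intro p
    rw [← pair_eq hC hP hK hH, ← tsum_mul_left]
    refine tsum_congr fun h => ?_
    ring
  rw [tsum_congr e2, tsum_mul_left, (summable_Bt hC hK hH r hu).tsum_comm]

theorem term_eq (hC : StCoef) (H : ℝ) (r : ℕ) (u : ℝ) (j : ℤ) {g m₁ m₂ : ℕ}
    (hs : Squarefree (g * m₁ * m₂)) (hc : (g * m₁ * m₂).Coprime r) :
    Bt H r u (g * m₁, g * m₂) j = AjTerm H r j u (g, m₁, m₂) := by
  obtain ⟨hg, hm1, hm2, c1, c2, hgcd, hqq⟩ := gcd_facts hs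
  have s1 : Squarefree (g * m₁) := hs.squarefree_of_dvd (Dvd.intro m₂ rfl)
  have s2 : Squarefree (g * m₂) := hs.squarefree_of_dvd ⟨m₁, by ring⟩
  have r1 : (g * m₁).Coprime r := Nat.Coprime.coprime_dvd_left (Dvd.intro m₂ rfl) hc
  have r2 : (g * m₂).Coprime r := Nat.Coprime.coprime_dvd_left ⟨m₁, by ring⟩ hc
  unfold Bt AjTerm
  simp only
  rw [hgcd, hqq, if_pos ⟨hs, hc⟩]
  unfold wt
  rw [if_pos ⟨s1, r1⟩, if_pos ⟨s2, r2⟩, hC.mul _ _ c1, hC.mul _ _ c2]
  have e0 : Real.exp (-π * ((g * m₁ : ℕ) : ℝ) * u) * Real.exp (-π * ((g * m₂ : ℕ) : ℝ) * u) =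
      Real.exp (-π * g * u * (m₁ + m₂)) := by
    rw [← Real.exp_add]
    congr 1
    push_cast
    ring
  have e1 : √((m₁ * m₂ : ℕ) : ℝ) = √(m₁ : ℝ) * √(m₂ : ℝ) := by
    push_cast
    rw [Real.sqrt_mul (by positivity)]
  have e2 : ∑ d ∈ g.divisors, (ArithmeticFunction.moebius d : ℝ) / (d * √((m₁ * m₂ : ℕ) : ℝ)) *
      (if (d : ℤ) ∣ j then chi j (m₁ * m₂) *
        Gk (|(j : ℝ)| * H / ((d : ℝ) ^ 2 * ((m₁ * m₂ : ℕ) : ℝ))) else 0) =
      (1 / (√(m₁ : ℝ) * √(m₂ : ℝ))) * chi j (m₁ * m₂) *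
      ∑ d ∈ g.divisors, if (d : ℤ) ∣ j then
        (ArithmeticFunction.moebius d : ℝ) / d *
          Gk (|(j : ℝ)| * H / ((d : ℝ) ^ 2 * (m₁ * m₂))) else 0 := by
    rw [Finset.mul_sum]
    refine Finset.sum_congr rfl fun d _ => ?_
    rw [e1]
    split_ifs
    · push_cast
      ring
    · ring
  rw [e2]
  have m1p : (0 : ℝ) < √(m₁ : ℝ) := Real.sqrt_pos.2 (by exact_mod_cast Nat.pos_of_ne_zero hm1)
  have m2p : (0 : ℝ) < √(m₂ : ℝ) := Real.sqrt_pos.2 (by exact_mod_cast Nat.pos_of_ne_zero hm2)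
  rw [← e0]
  unfold lam
  push_cast
  field_simp

/-- regrouping by the greatest common divisor -/
theorem Aj_eq (hC : StCoef) (H : ℝ) (r : ℕ) (u : ℝ) (j : ℤ) :
    ∑' p : ℕ × ℕ, Bt H r u p j = Aj H r j u := by
  unfold Aj
  have hT : ∀ t : ℕ × ℕ × ℕ, AjTerm H r j u t ≠ 0 →
      Squarefree (t.1 * t.2.1 * t.2.2) ∧ (t.1 * t.2.1 * t.2.2).Coprime r := by
    intro t ht
    unfold AjTerm at ht
    by_contra h
    rw [if_neg h] at ht
    exact ht rfl
  refine tsum_eq_tsum_of_ne_zero_bij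
    (fun t : Function.support (AjTerm H r j u) => (t.1.1 * t.1.2.1, t.1.1 * t.1.2.2)) ?_ ?_ ?_
  · rintro ⟨⟨g, m₁, m₂⟩, ht⟩ ⟨⟨g', m₁', m₂'⟩, ht'⟩ h
    obtain ⟨hs, -⟩ := hT _ ht
    obtain ⟨hs', -⟩ := hT _ ht'
    obtain ⟨hg, -, -, -, -, hgcd, -⟩ := gcd_facts hs
    obtain ⟨hg', -, -, -, -, hgcd', -⟩ := gcd_facts hs'
    simp only [Prod.mk.injEq] at h hgcd hgcd' hg
    obtain ⟨h1, h2⟩ := h
    have e : g = g' := by rw [← hgcd, ← hgcd', h1, h2]
    subst e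
    have e1 : m₁ = m₁' := Nat.eq_of_mul_eq_mul_left (Nat.pos_of_ne_zero hg) h1
    have e2 : m₂ = m₂' := Nat.eq_of_mul_eq_mul_left (Nat.pos_of_ne_zero hg) h2
    subst e1; subst e2
    rfl
  · intro p hp
    have hp' : Bt H r u p j ≠ 0 := hp
    have w1 : wt r u p.1 ≠ 0 := by
      intro h; apply hp'; unfold Bt; rw [h]; ring
    have w2 : wt r u p.2 ≠ 0 := by
      intro h; apply hp'; unfold Bt; rw [h]; ring
    obtain ⟨s1, r1, -⟩ := wt_ne_zero w1
    obtain ⟨s2, r2, -⟩ := wt_ne_zero w2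
    obtain ⟨n₁, n₂⟩ := p
    simp only at s1 s2 r1 r2
    obtain ⟨a, ha⟩ := Nat.gcd_dvd_left n₁ n₂
    obtain ⟨b, hb⟩ := Nat.gcd_dvd_right n₁ n₂
    set g := n₁.gcd n₂ with hgdef
    have hg0 : 0 < g := Nat.gcd_pos_of_pos_left _ (Nat.pos_of_ne_zero s1.ne_zero)
    have hab : Nat.Coprime a b := by
      have h1 := Nat.coprime_div_gcd_div_gcd (m := n₁) (n := n₂) hg0
      rw [← hgdef] at h1
      have ea : n₁ / g = a := Nat.div_eq_of_eq_mul_right hg0 ha
      have eb : n₂ / g = b := Nat.div_eq_of_eq_mul_right hg0 hb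
      rwa [ea, eb] at h1
    rw [ha] at s1 r1
    rw [hb] at s2 r2
    have hgb : Nat.Coprime g b := ((Nat.squarefree_mul_iff).1 s2).1
    have hcop : Nat.Coprime (g * a) b := Nat.Coprime.mul_left hgb hab
    have hs : Squarefree (g * a * b) := by
      rw [Nat.squarefree_mul_iff]
      exact ⟨hcop, s1, ((Nat.squarefree_mul_iff).1 s2).2.2⟩
    have hr : (g * a * b).Coprime r :=
      Nat.Coprime.mul_left r1 (Nat.Coprime.coprime_dvd_left (Dvd.intro_left g rfl) r2)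
    have key := term_eq hC H r u j hs hr
    refine ⟨⟨(g, a, b), ?_⟩, ?_⟩
    · rw [Function.mem_support, ← key, ← ha, ← hb]
      exact hp'
    · simp only [Prod.mk.injEq]
      exact ⟨ha.symm, hb.symm⟩
  · rintro ⟨⟨g, m₁, m₂⟩, ht⟩
    obtain ⟨hs, hr⟩ := hT _ ht
    exact term_eq hC H r u j hs hr

theorem tsum_abs_Aj (H : ℝ) (r : ℕ) (u : ℝ) :
    ∑' j : ℤ, ENNReal.ofReal |Aj H r j u| = ENNReal.ofReal |Aj H r 0 u| +
      ∑' j : ℕ, (ENNReal.ofReal |Aj H r (j + 1) u| + ENNReal.ofReal |Aj H r (-(j + 1)) u|) := by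
  rw [tsum_of_nat_of_neg_add_one ENNReal.summable ENNReal.summable]
  have e1 : ∑' n : ℕ, ENNReal.ofReal |Aj H r (n : ℤ) u| =
      ENNReal.ofReal |Aj H r 0 u| + ∑' j : ℕ, ENNReal.ofReal |Aj H r (j + 1) u| := by
    rw [tsum_eq_zero_add' ENNReal.summable]
    push_cast
    rfl
  rw [e1, ENNReal.tsum_add, add_assoc]

/-- Module H1. -/
theorem pfSumS (hC : StCoef) (hP : StPair) (hK : StKer) : StSumS := by
  refine ⟨1 / c0, by have := c0_pos; positivity, fun X r H u hr hX hXH hu => ?_⟩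
  have hX1 : (1 : ℝ) ≤ X := by exact_mod_cast hX
  have hH : 0 < H := by linarith
  have hc := c0_pos
  -- the series `∑ ah h * Uf h ^ 2` is summable
  have hW : ∀ h : ℤ, Uf h r u ^ 2 ≤ (∑' n, |wt r u n|) ^ 2 := by
    intro h
    have h0 : Summable fun n : ℕ => |wt r u n| := by
      have := summable_wt hC r hu 0
      simpa using this
    have h1 : |Uf h r u| ≤ ∑' n, |wt r u n| := by
      rw [Uf_eq]
      have h2 : ∀ n, ‖wt r u n * chi h n‖ ≤ |wt r u n| := fun n => by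
        rw [norm_mul, Real.norm_eq_abs, Real.norm_eq_abs]
        exact mul_le_of_le_one_right (abs_nonneg _) (abs_chi_le _ _)
      exact tsum_of_norm_bounded h0.hasSum h2
    rw [← sq_abs (Uf h r u)]
    exact pow_le_pow_left₀ (abs_nonneg _) h1 2
  have hsum : Summable fun h : ℤ => ah H h * Uf h r u ^ 2 := by
    refine Summable.of_nonneg_of_le (fun h => mul_nonneg (ah_nonneg H h) (sq_nonneg _))
      (fun h => mul_le_mul_of_nonneg_left (hW h) (ah_nonneg H h))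
      ((summable_ah hH).mul_right _)
  have hlow : c0 * ∑ m ∈ sqZ X, Uf m r u ^ 2 ≤ ∑' h : ℤ, ah H h * Uf h r u ^ 2 := by
    rw [Finset.mul_sum]
    have h1 : ∑ m ∈ sqZ X, c0 * Uf m r u ^ 2 ≤ ∑ m ∈ sqZ X, ah H m * Uf m r u ^ 2 := by
      refine Finset.sum_le_sum fun m hm => ?_
      refine mul_le_mul_of_nonneg_right ?_ (sq_nonneg _)
      refine c0_le_int hH ?_
      have h2 : m.natAbs ≤ X := (mem_sqZ.1 hm).1
      have h3 : |(m : ℝ)| = (m.natAbs : ℝ) := by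
        rw [Nat.cast_natAbs]
        push_cast
        rfl
      rw [h3]
      exact le_trans (by exact_mod_cast h2) hXH
    refine h1.trans ?_
    exact hsum.sum_le_tsum _ fun h _ => mul_nonneg (ah_nonneg H h) (sq_nonneg _)
  rw [S_eq hC hP hK hH r hu, tsum_congr (Aj_eq hC H r u)] at hlow
  have habs : ENNReal.ofReal (∑' j : ℤ, Aj H r j u) ≤ ∑' j : ℤ, ENNReal.ofReal |Aj H r j u| := by
    by_cases hs : Summable fun j : ℤ => |Aj H r j u|
    · rw [← ENNReal.ofReal_tsum_of_nonneg (fun j => abs_nonneg _) hs]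
      refine ENNReal.ofReal_le_ofReal ?_
      refine Summable.tsum_le_tsum (fun j => le_abs_self _) ?_ hs
      exact Summable.of_abs hs
    · have : ¬ Summable fun j : ℤ => Aj H r j u := fun h => hs h.abs
      rw [tsum_eq_zero_of_not_summable this]
      simp
  calc ENNReal.ofReal (∑ m ∈ sqZ X, Uf m r u ^ 2)
      ≤ ENNReal.ofReal (1 / c0 * H) * ENNReal.ofReal (∑' j : ℤ, Aj H r j u) := by
        rw [← ENNReal.ofReal_mul (by positivity)]
        refine ENNReal.ofReal_le_ofReal ?_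
        rw [one_div, inv_mul_eq_div, div_mul_eq_mul_div, le_div_iff₀ hc]
        linarith
    _ ≤ _ := by
        rw [← tsum_abs_Aj]
        gcongr

end P004G.H1
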