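import Vale.Agent.P004G.Iface

/-!
# P004G, module H2 : separation of variables in `Aj` (`StSep`)
-/

open Real MeasureTheory Set
open scoped ENNReal

namespace P004G

variable [Crv]
namespace H2

/-- the base term (without coprimality conditions) -/
noncomputable def base (H : ℝ) (j : ℤ) (u : ℝ) (g m₁ m₂ : ℕ) : ℝ :=
    (ca g : ℝ) ^ 2 * (lam m₁ * lam m₂) * chi j (m₁ * m₂) *
      (∑ d ∈ g.divisors, if (d : ℤ) ∣ j then
        (ArithmeticFunction.moebius d : ℝ) / d *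
          Gk (|(j : ℝ)| * H / ((d : ℝ) ^ 2 * (m₁ * m₂))) else 0) *
      Real.exp (-π * g * u * (m₁ + m₂))

/-- the conditions on `g, m₁, m₂` other than the coprimality of `m₁` and `m₂` -/
def Cnd (r g m₁ m₂ : ℕ) : Prop :=
  (Squarefree g ∧ g.Coprime r) ∧ (Squarefree m₁ ∧ m₁.Coprime (g * r)) ∧
    (Squarefree m₂ ∧ m₂.Coprime (g * r))

open Classical in
/-- the terms after opening the condition `(m₁, m₂) = 1` -/
noncomputable def Fe (H : ℝ) (r : ℕ) (j : ℤ) (u : ℝ) (g e m₁ m₂ : ℕ) : ℝ :=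
  if Cnd r g m₁ m₂ ∧ e ∣ m₁ ∧ e ∣ m₂ then
    (ArithmeticFunction.moebius e : ℝ) * base H j u g m₁ m₂ else 0

lemma sum_moebius_divisors (n : ℕ) :
    ∑ e ∈ n.divisors, (ArithmeticFunction.moebius e : ℝ) = if n = 1 then 1 else 0 := by
  have h := congrArg (fun f : ArithmeticFunction ℤ => f n)
    ArithmeticFunction.moebius_mul_coe_zeta
  simp only [ArithmeticFunction.coe_mul_zeta_apply, ArithmeticFunction.one_apply] at h
  have h2 := congrArg (fun z : ℤ => (z : ℝ)) h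
  push_cast at h2
  rw [h2]

lemma cnd_iff (r g m₁ m₂ : ℕ) :
    (Squarefree (g * m₁ * m₂) ∧ (g * m₁ * m₂).Coprime r) ↔
      Cnd r g m₁ m₂ ∧ m₁.gcd m₂ = 1 := by
  unfold Cnd
  simp only [Nat.squarefree_mul_iff, Nat.coprime_mul_iff_left, Nat.coprime_mul_iff_right]
  constructor
  · rintro ⟨⟨⟨h1, h2⟩, ⟨h3, h4, h5⟩, h6⟩, ⟨h7, h8⟩, h9⟩
    exact ⟨⟨⟨h4, h7⟩, ⟨h5, h3.symm, h8⟩, ⟨h6, h1.symm, h9⟩⟩, h2⟩
  · rintro ⟨⟨⟨h4, h7⟩, ⟨h5, h3, h8⟩, ⟨h6, h1, h9⟩⟩, h2⟩
    exact ⟨⟨⟨h1.symm, h2⟩, ⟨h3.symm, h4, h5⟩, h6⟩, ⟨h7, h8⟩, h9⟩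

lemma AjTerm_eq (H : ℝ) (r : ℕ) (j : ℤ) (u : ℝ) (g m₁ m₂ : ℕ) :
    AjTerm H r j u (g, m₁, m₂) = ∑' e : ℕ, Fe H r j u g e m₁ m₂ := by
  classical
  unfold AjTerm Fe
  simp only [cnd_iff]
  by_cases hC : Cnd r g m₁ m₂
  · have hm : m₁.gcd m₂ ≠ 0 := by
      intro h
      have := hC.2.1.1.ne_zero
      exact this (Nat.eq_zero_of_gcd_eq_zero_left h)
    simp only [hC, true_and]
    rw [tsum_eq_sum (s := (m₁.gcd m₂).divisors)]
    · have : ∀ e ∈ (m₁.gcd m₂).divisors, (if e ∣ m₁ ∧ e ∣ m₂ then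
          (ArithmeticFunction.moebius e : ℝ) * base H j u g m₁ m₂ else 0) =
          (ArithmeticFunction.moebius e : ℝ) * base H j u g m₁ m₂ := by
        intro e he
        rw [Nat.mem_divisors, Nat.dvd_gcd_iff] at he
        rw [if_pos he.1]
      rw [Finset.sum_congr rfl this, ← Finset.sum_mul, sum_moebius_divisors]
      split_ifs with h
      · simp [base]
      · simp
    · intro e he
      rw [Nat.mem_divisors, Nat.dvd_gcd_iff] at he
      rw [if_neg]
      exact fun h => he ⟨h, hm⟩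
  · simp [hC]

lemma dv_nonneg (n : ℕ) : 0 ≤ dv n := by unfold dv; positivity

lemma dv_le (n : ℕ) : dv n ≤ n := by
  unfold dv
  exact_mod_cast Nat.card_divisors_le_self n

lemma lam_le (hco : StCoef) (n : ℕ) : |lam n| ≤ dv n := by
  unfold lam
  rcases Nat.eq_zero_or_pos n with h | h
  · subst h; simp [dv]
  · have hs : 0 < √(n : ℝ) := Real.sqrt_pos.mpr (by exact_mod_cast h)
    rw [abs_div, abs_of_pos hs, div_le_iff₀ hs]
    exact hco.bound n

lemma chi_le (m : ℤ) (n : ℕ) : |chi m n| ≤ 1 := by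
  unfold chi
  rcases jacobiSym.trichotomy m n with h | h | h <;> simp [h]

lemma Gk_abs_le (hk : StKer) (y : ℝ) : |Gk y| ≤ 5040 := by
  rw [abs_of_nonneg (hk.nonneg y)]; exact hk.le y

lemma moebius_div_le (d : ℕ) : |(ArithmeticFunction.moebius d : ℝ) / d| ≤ 1 := by
  have h1 : |(ArithmeticFunction.moebius d : ℝ)| ≤ 1 := by
    have := ArithmeticFunction.abs_moebius_le_one (n := d)
    exact_mod_cast this
  rcases Nat.eq_zero_or_pos d with h | h
  · subst h; simp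
  · have hd : (1 : ℝ) ≤ d := by exact_mod_cast h
    rw [abs_div, abs_of_pos (by linarith : (0 : ℝ) < d)]
    exact (div_le_one (by linarith)).mpr (h1.trans hd)

lemma base_le (hco : StCoef) (hk : StKer) (H : ℝ) (j : ℤ) (u : ℝ) (g m₁ m₂ : ℕ) :
    |base H j u g m₁ m₂| ≤ (ca g : ℝ) ^ 2 * (5040 * g) *
      ((m₁ * Real.exp (-(π * g * u) * m₁)) * (m₂ * Real.exp (-(π * g * u) * m₂))) := by
  unfold base
  have h1 : |∑ d ∈ g.divisors, if (d : ℤ) ∣ j then
        (ArithmeticFunction.moebius d : ℝ) / d *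
          Gk (|(j : ℝ)| * H / ((d : ℝ) ^ 2 * (m₁ * m₂))) else 0| ≤ 5040 * g := by
    refine (Finset.abs_sum_le_sum_abs _ _).trans ?_
    have : ∀ d ∈ g.divisors, |if (d : ℤ) ∣ j then
        (ArithmeticFunction.moebius d : ℝ) / d *
          Gk (|(j : ℝ)| * H / ((d : ℝ) ^ 2 * (m₁ * m₂))) else 0| ≤ 5040 := by
      intro d _
      split_ifs
      · rw [abs_mul]
        calc _ ≤ 1 * 5040 := mul_le_mul (moebius_div_le d) (Gk_abs_le hk _) (abs_nonneg _)
              zero_le_one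
          _ = 5040 := by norm_num
      · simp
    refine (Finset.sum_le_sum this).trans ?_
    rw [Finset.sum_const, nsmul_eq_mul, mul_comm]
    have := dv_le g
    unfold dv at this
    linarith
  have h2 : Real.exp (-π * g * u * (m₁ + m₂)) =
      Real.exp (-(π * g * u) * m₁) * Real.exp (-(π * g * u) * m₂) := by
    rw [← Real.exp_add]; congr 1; ring
  rw [abs_mul, abs_mul, abs_mul, abs_mul, abs_mul, abs_of_nonneg (sq_nonneg _), h2, abs_mul,
    abs_of_pos (Real.exp_pos _), abs_of_pos (Real.exp_pos _)]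
  have h3 := (lam_le hco m₁).trans (dv_le m₁)
  have h4 := (lam_le hco m₂).trans (dv_le m₂)
  have h5 := chi_le j (m₁ * m₂)
  calc (ca g : ℝ) ^ 2 * (|lam m₁| * |lam m₂|) * |chi j (m₁ * m₂)| * _ *
        (Real.exp (-(π * g * u) * m₁) * Real.exp (-(π * g * u) * m₂))
      ≤ (ca g : ℝ) ^ 2 * (m₁ * m₂) * 1 * (5040 * g) *
        (Real.exp (-(π * g * u) * m₁) * Real.exp (-(π * g * u) * m₂)) := by gcongr
    _ = _ := by ring

lemma Fe_le (hco : StCoef) (hk : StKer) (H : ℝ) (r : ℕ) (j : ℤ) (u : ℝ) (g e m₁ m₂ : ℕ) :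
    |Fe H r j u g e m₁ m₂| ≤ (ca g : ℝ) ^ 2 * (5040 * g) *
      (((m₁ : ℝ) ^ 3 * Real.exp (-(π * g * u) * m₁)) *
        ((m₂ : ℝ) ^ 1 * Real.exp (-(π * g * u) * m₂)) * (1 / (e : ℝ) ^ 2)) := by
  unfold Fe
  split_ifs with h
  · have hm : m₁ ≠ 0 := h.1.2.1.1.ne_zero
    have he : 0 < e := Nat.pos_of_dvd_of_pos h.2.1 (Nat.pos_of_ne_zero hm)
    have hle : (e : ℝ) ≤ m₁ := by exact_mod_cast Nat.le_of_dvd (Nat.pos_of_ne_zero hm) h.2.1
    have he' : (0 : ℝ) < e := by exact_mod_cast he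
    have h1 : |(ArithmeticFunction.moebius e : ℝ)| ≤ 1 := by
      have := ArithmeticFunction.abs_moebius_le_one (n := e)
      exact_mod_cast this
    have h2 : (1 : ℝ) ≤ (m₁ : ℝ) ^ 2 * (1 / (e : ℝ) ^ 2) := by
      rw [mul_one_div, le_div_iff₀ (by positivity), one_mul]
      gcongr
    rw [abs_mul]
    calc _ ≤ 1 * |base H j u g m₁ m₂| := by gcongr
      _ ≤ 1 * ((ca g : ℝ) ^ 2 * (5040 * g) *
      ((m₁ * Real.exp (-(π * g * u) * m₁)) * (m₂ * Real.exp (-(π * g * u) * m₂)))) := by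
          gcongr; exact base_le hco hk H j u g m₁ m₂
      _ ≤ ((m₁ : ℝ) ^ 2 * (1 / (e : ℝ) ^ 2)) * ((ca g : ℝ) ^ 2 * (5040 * g) *
      ((m₁ * Real.exp (-(π * g * u) * m₁)) * (m₂ * Real.exp (-(π * g * u) * m₂)))) := by
          gcongr
      _ = _ := by ring
  · simp only [abs_zero]; positivity

lemma summable_Fe (hco : StCoef) (hk : StKer) (H : ℝ) (r : ℕ) (j : ℤ) (u : ℝ) (hu : 0 < u)
    (g : ℕ) (hg : 0 < g) :
    Summable (fun t : (ℕ × ℕ) × ℕ => Fe H r j u g t.2 t.1.1 t.1.2) := by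
  have hc : 0 < π * g * u := by positivity
  have s1 := Real.summable_pow_mul_exp_neg_nat_mul 3 hc
  have s2 := Real.summable_pow_mul_exp_neg_nat_mul 1 hc
  have s3 : Summable (fun e : ℕ => 1 / (e : ℝ) ^ 2) :=
    Real.summable_one_div_nat_pow.mpr (by norm_num)
  have s4 := (s1.mul_of_nonneg s2 (fun _ => by positivity) (fun _ => by positivity))
  have s5 := (s4.mul_of_nonneg s3 (fun _ => by positivity) (fun _ => by positivity)).mul_left
    ((ca g : ℝ) ^ 2 * (5040 * g))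
  refine Summable.of_norm_bounded s5 ?_
  rintro ⟨⟨m₁, m₂⟩, e⟩
  exact Fe_le hco hk H r j u g e m₁ m₂

lemma Aj_le (hco : StCoef) (hk : StKer) (H : ℝ) (r : ℕ) (j : ℤ) (u : ℝ) (hu : 0 < u) :
    ENNReal.ofReal |Aj H r j u| ≤
      ∑' g : ℕ, ∑' e : ℕ, ‖∑' m : ℕ × ℕ, Fe H r j u g e m.1 m.2‖ₑ := by
  rw [← Real.enorm_eq_ofReal_abs]
  unfold Aj
  by_cases hs : Summable (AjTerm H r j u)
  · rw [hs.tsum_prod]
    refine enorm_tsum_le_tsum_enorm.trans (ENNReal.tsum_le_tsum fun g => ?_)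
    refine le_trans (le_of_eq ?_) (enorm_tsum_le_tsum_enorm (f := fun e : ℕ =>
      ∑' m : ℕ × ℕ, Fe H r j u g e m.1 m.2))
    congr 1
    have h1 : ∀ m : ℕ × ℕ, AjTerm H r j u (g, m) = ∑' e : ℕ, Fe H r j u g e m.1 m.2 :=
      fun m => AjTerm_eq H r j u g m.1 m.2
    simp_rw [h1]
    rcases Nat.eq_zero_or_pos g with hg | hg
    · subst hg
      have : ∀ (e : ℕ) (m : ℕ × ℕ), Fe H r j u 0 e m.1 m.2 = 0 := by
        intro e m
        unfold Fe
        rw [if_neg]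
        intro h
        exact not_squarefree_zero h.1.1.1
      simp [this]
    · exact (Summable.tsum_comm (f := fun (m : ℕ × ℕ) (e : ℕ) => Fe H r j u g e m.1 m.2)
        (summable_Fe hco hk H r j u hu g hg)).symm
  · rw [tsum_eq_zero_of_not_summable hs]
    simp

/-! ### one pair `(g, e)` -/

/-- the condition on the new variables -/
def P (R n : ℕ) : Prop := Squarefree n ∧ n.Coprime R

lemma cnd_mul (r g e n₁ n₂ : ℕ) :
    Cnd r g (e * n₁) (e * n₂) ↔
      ((Squarefree g ∧ g.Coprime r) ∧ Squarefree e ∧ e.Coprime (g * r)) ∧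
        P (e * g * r) n₁ ∧ P (e * g * r) n₂ := by
  unfold Cnd P
  simp only [Nat.squarefree_mul_iff, Nat.coprime_mul_iff_left, Nat.coprime_mul_iff_right]
  constructor
  · rintro ⟨⟨h1, h2⟩, ⟨⟨h3, h4, h5⟩, ⟨h6, h7⟩, h8, h9⟩, ⟨⟨h10, -, h11⟩, ⟨-, h12⟩, -, h13⟩⟩
    exact ⟨⟨⟨h1, h2⟩, h4, h6, h8⟩, ⟨h5, ⟨h3.symm, h7⟩, h9⟩, ⟨h11, ⟨h10.symm, h12⟩, h13⟩⟩
  · rintro ⟨⟨⟨h1, h2⟩, h4, h6, h8⟩, ⟨h5, ⟨h3, h7⟩, h9⟩, ⟨h11, ⟨h10, h12⟩, h13⟩⟩
    exact ⟨⟨h1, h2⟩, ⟨⟨h3.symm, h4, h5⟩, ⟨h6, h7⟩, h8, h9⟩, ⟨⟨h10.symm, h4, h11⟩, ⟨h6, h12⟩, h8,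
      h13⟩⟩

/-- the exponent `1/2 - θ + iv` -/
noncomputable def wv (θ v : ℝ) : ℂ := ((1 / 2 - θ : ℝ) : ℂ) + v * Complex.I

/-- the divisor sum -/
noncomputable def Dv (θ v : ℝ) (j : ℤ) (g : ℕ) : ℂ :=
  ∑ d ∈ g.divisors, if (d : ℤ) ∣ j then
    (((ArithmeticFunction.moebius d : ℝ) / d : ℝ) : ℂ) *
      Complex.exp (wv θ v * (2 * Real.log d : ℝ)) else 0

/-- the weight in `v` -/
noncomputable def Kc (θ H : ℝ) (j : ℤ) (g e : ℕ) (v : ℝ) : ℂ :=
  (((ArithmeticFunction.moebius e : ℝ) * (ca g : ℝ) ^ 2 * lam e ^ 2 * chi j e ^ 2 : ℝ) : ℂ) *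
    kapc θ v * Complex.exp (-wv θ v * (Real.log (|(j : ℝ)| * H) : ℝ)) *
    Complex.exp (wv θ v * (2 * Real.log e : ℝ)) * Dv θ v j g

open Classical in
/-- the terms of `Tf` -/
noncomputable def an (θ : ℝ) (R : ℕ) (j : ℤ) (U : ℝ) (n : ℕ) (v : ℝ) : ℂ :=
  if P R n then
    (((ca n : ℝ) * chi j n * Real.exp (-π * n * U) : ℝ) : ℂ) *
      (n : ℂ) ^ (-(θ : ℂ) + v * Complex.I) else 0

lemma Tf_eq (θ v : ℝ) (R : ℕ) (j : ℤ) (U : ℝ) : Tf θ v R j U = ∑' n : ℕ, an θ R j U n v := by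
  unfold Tf an P
  congr 1
  ext n
  congr

lemma Kc_norm (hco : StCoef) (θ H : ℝ) (hθ : 0 < θ) (hθ' : θ ≤ 1 / 8) (hH : 0 < H) (j : ℤ)
    (g e : ℕ) (hj : j ≠ 0) (he : 0 < e) (v C : ℝ) (hC : 0 < C)
    (hb : ‖kapc θ v‖ ≤ C * Real.exp (-3 * π * |v|)) :
    ‖Kc θ H j g e v‖ ≤ C * (|(j : ℝ)| * H) ^ (-1 / 2 + θ) *
      (g * dv g ^ 3 * (dv e ^ 2 * (e : ℝ) ^ (1 - 2 * θ))) * Real.exp (-3 * π * |v|) := by
  have hj' : (j : ℝ) ≠ 0 := Int.cast_ne_zero.2 hj
  have hjH : 0 < |(j : ℝ)| * H := by positivity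
  have he' : (0 : ℝ) < e := by exact_mod_cast he
  have hre : (wv θ v).re = 1 / 2 - θ := by simp [wv]
  have h1 : ‖Complex.exp (-wv θ v * (Real.log (|(j : ℝ)| * H) : ℝ))‖ =
      (|(j : ℝ)| * H) ^ (-1 / 2 + θ) := by
    rw [Complex.norm_exp, Complex.re_mul_ofReal, Complex.neg_re, hre, Real.rpow_def_of_pos hjH]
    congr 1; ring
  have h2 : ‖Complex.exp (wv θ v * (2 * Real.log e : ℝ))‖ = (e : ℝ) ^ (1 - 2 * θ) := by
    rw [Complex.norm_exp, Complex.re_mul_ofReal, hre, Real.rpow_def_of_pos he']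
    congr 1; ring
  have h3 : ‖Dv θ v j g‖ ≤ dv g := by
    unfold Dv
    refine (norm_sum_le _ _).trans ?_
    have : ∀ d ∈ g.divisors, ‖if (d : ℤ) ∣ j then
      (((ArithmeticFunction.moebius d : ℝ) / d : ℝ) : ℂ) *
        Complex.exp (wv θ v * (2 * Real.log d : ℝ)) else 0‖ ≤ 1 := by
      intro d hd
      have hd0 : 0 < d := Nat.pos_of_mem_divisors hd
      have hd1 : (1 : ℝ) ≤ d := by exact_mod_cast hd0
      split_ifs
      · rw [norm_mul, Complex.norm_exp, Complex.re_mul_ofReal, hre, Complex.norm_real,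
          Real.norm_eq_abs, abs_div, abs_of_pos (by linarith : (0 : ℝ) < d)]
        have hmu : |(ArithmeticFunction.moebius d : ℝ)| ≤ 1 := by
          have := ArithmeticFunction.abs_moebius_le_one (n := d)
          exact_mod_cast this
        have hl : 0 ≤ Real.log d := Real.log_nonneg hd1
        have : Real.exp ((1 / 2 - θ) * (2 * Real.log d)) ≤ d := by
          calc _ ≤ Real.exp (Real.log d) := by
                apply Real.exp_le_exp.mpr; nlinarith
            _ = d := Real.exp_log (by linarith)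
        calc _ ≤ 1 / (d : ℝ) * d := by gcongr
          _ = 1 := by field_simp
      · simp
    refine (Finset.sum_le_sum this).trans ?_
    rw [Finset.sum_const, nsmul_eq_mul, mul_one]
    rfl
  have h4 : |(ArithmeticFunction.moebius e : ℝ) * (ca g : ℝ) ^ 2 * lam e ^ 2 *
      chi j e ^ 2| ≤ 1 * (g * dv g ^ 2) * dv e ^ 2 * 1 := by
    rw [abs_mul, abs_mul, abs_mul, abs_pow (lam e), abs_pow (chi j e), abs_pow]
    have hmu : |(ArithmeticFunction.moebius e : ℝ)| ≤ 1 := by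
      have := ArithmeticFunction.abs_moebius_le_one (n := e)
      exact_mod_cast this
    have hg : |(ca g : ℝ)| ^ 2 ≤ g * dv g ^ 2 := by
      calc |(ca g : ℝ)| ^ 2 ≤ (dv g * √(g : ℝ)) ^ 2 := by
            gcongr; exact hco.bound g
        _ = g * dv g ^ 2 := by
            rw [mul_pow, Real.sq_sqrt (by positivity)]; ring
    have hx : |chi j e| ^ 2 ≤ 1 := by
      calc |chi j e| ^ 2 ≤ 1 ^ 2 := by gcongr; exact chi_le _ _
        _ = 1 := by norm_num
    have hle := lam_le hco e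
    gcongr
  unfold Kc
  rw [norm_mul, norm_mul, norm_mul, norm_mul, h1, h2, Complex.norm_real, Real.norm_eq_abs]
  have hd := dv_nonneg g
  have hde := dv_nonneg e
  calc _ ≤ (1 * (g * dv g ^ 2) * dv e ^ 2 * 1) * (C * Real.exp (-3 * π * |v|)) *
        (|(j : ℝ)| * H) ^ (-1 / 2 + θ) * (e : ℝ) ^ (1 - 2 * θ) * dv g := by gcongr
    _ = _ := by ring

lemma integrable_expabs : Integrable (fun v : ℝ => Real.exp (-3 * π * |v|)) := by
  refine Integrable.mono' (integrable_inv_one_add_sq) (by fun_prop) ?_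
  refine Filter.Eventually.of_forall fun v => ?_
  rw [Real.norm_eq_abs, abs_of_pos (Real.exp_pos _), ← one_div, le_div_iff₀ (by positivity)]
  have h0 : 0 ≤ |v| := abs_nonneg v
  have h1 : |v| ≤ 3 * π * |v| / 3 := by nlinarith [Real.pi_gt_three]
  have h2 := Real.quadratic_le_exp_of_nonneg (x := 3 * π * |v|) (by positivity)
  have h3 : 1 + v ^ 2 ≤ Real.exp (3 * π * |v|) := by
    refine le_trans ?_ h2
    have h4 : v ^ 2 = |v| ^ 2 := (sq_abs v).symm
    have h5 : (9 : ℝ) * |v| ≤ 3 * π * |v| := by nlinarith [Real.pi_gt_three]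
    have h6 : (9 * |v|) ^ 2 ≤ (3 * π * |v|) ^ 2 := by gcongr
    nlinarith [sq_nonneg (|v|), mul_nonneg Real.pi_pos.le h0]
  calc Real.exp (-3 * π * |v|) * (1 + v ^ 2) ≤ Real.exp (-3 * π * |v|) *
        Real.exp (3 * π * |v|) := by gcongr
    _ = 1 := by rw [← Real.exp_add]; ring_nf; simp

lemma wv_cont (θ : ℝ) : Continuous (fun v : ℝ => wv θ v) := by
  unfold wv; fun_prop

lemma Dv_cont (θ : ℝ) (j : ℤ) (g : ℕ) : Continuous (fun v : ℝ => Dv θ v j g) := by
  unfold Dv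
  refine continuous_finsetSum _ fun d _ => ?_
  split_ifs
  · have := wv_cont θ
    fun_prop
  · exact continuous_const

lemma Kc_cont (hk : StKer) (θ H : ℝ) (hθ : 0 < θ) (hθ' : θ ≤ 1 / 8) (j : ℤ) (g e : ℕ) :
    Continuous (Kc θ H j g e) := by
  have h1 := hk.kcont θ hθ (by linarith)
  have h2 := wv_cont θ
  have h3 := Dv_cont θ j g
  unfold Kc
  fun_prop

lemma Kc_int (hco : StCoef) (hk : StKer) (θ H : ℝ) (hθ : 0 < θ) (hθ' : θ ≤ 1 / 8) (hH : 0 < H)
    (j : ℤ) (g e : ℕ) (hj : j ≠ 0) (he : 0 < e) : Integrable (Kc θ H j g e) := by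
  obtain ⟨C, hC, hb⟩ := hk.kbound
  refine Integrable.mono' (integrable_expabs.const_mul (C * (|(j : ℝ)| * H) ^ (-1 / 2 + θ) *
      (g * dv g ^ 3 * (dv e ^ 2 * (e : ℝ) ^ (1 - 2 * θ)))))
    (Kc_cont hk θ H hθ hθ' j g e).aestronglyMeasurable ?_
  exact Filter.Eventually.of_forall fun v =>
    Kc_norm hco θ H hθ hθ' hH j g e hj he v C hC (hb θ v hθ (by linarith))

lemma kap_int (hk : StKer) (θ : ℝ) (hθ : 0 < θ) (hθ' : θ ≤ 1 / 8) (c : ℝ) :
    Integrable (fun v => kapc θ v * Complex.exp (wv θ v * (c : ℝ))) := by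
  obtain ⟨C, hC, hb⟩ := hk.kbound
  refine Integrable.mono' (integrable_expabs.const_mul (C * Real.exp ((1 / 2 - θ) * c))) ?_ ?_
  · have h1 := hk.kcont θ hθ (by linarith)
    have h2 := wv_cont θ
    exact Continuous.aestronglyMeasurable (by fun_prop)
  · refine Filter.Eventually.of_forall fun v => ?_
    have hre : (wv θ v).re = 1 / 2 - θ := by simp [wv]
    rw [norm_mul, Complex.norm_exp, Complex.re_mul_ofReal, hre]
    calc _ ≤ (C * Real.exp (-3 * π * |v|)) * Real.exp ((1 / 2 - θ) * c) := by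
          gcongr; exact hb θ v hθ (by linarith)
      _ = _ := by ring

/-- the representation of the sum over `d` -/
lemma sum_Gk (hk : StKer) (θ H : ℝ) (hθ : 0 < θ) (hθ' : θ ≤ 1 / 8) (hH : 0 < H) (j : ℤ) (g : ℕ)
    (hj : j ≠ 0) (m₁ m₂ : ℕ) (h₁ : 0 < m₁) (h₂ : 0 < m₂) :
    ((∑ d ∈ g.divisors, if (d : ℤ) ∣ j then
        (ArithmeticFunction.moebius d : ℝ) / d *
          Gk (|(j : ℝ)| * H / ((d : ℝ) ^ 2 * (m₁ * m₂))) else 0 : ℝ) : ℂ) =
    ∫ v : ℝ, kapc θ v * Complex.exp (-wv θ v * (Real.log (|(j : ℝ)| * H) : ℝ)) *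
      Dv θ v j g * Complex.exp (wv θ v * (Real.log m₁ + Real.log m₂ : ℝ)) := by
  have hj' : (j : ℝ) ≠ 0 := Int.cast_ne_zero.2 hj
  have h₁' : (0 : ℝ) < m₁ := by exact_mod_cast h₁
  have h₂' : (0 : ℝ) < m₂ := by exact_mod_cast h₂
  have key : ∀ v : ℝ, kapc θ v * Complex.exp (-wv θ v * (Real.log (|(j : ℝ)| * H) : ℝ)) *
      Dv θ v j g * Complex.exp (wv θ v * (Real.log m₁ + Real.log m₂ : ℝ)) =
      ∑ d ∈ g.divisors, if (d : ℤ) ∣ j then
        (((ArithmeticFunction.moebius d : ℝ) / d : ℝ) : ℂ) * (kapc θ v *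
          Complex.exp (wv θ v * ((-Real.log (|(j : ℝ)| * H) + 2 * Real.log d +
            Real.log m₁ + Real.log m₂ : ℝ) : ℂ))) else 0 := by
    intro v
    unfold Dv
    rw [Finset.mul_sum, Finset.sum_mul]
    refine Finset.sum_congr rfl fun d _ => ?_
    split_ifs
    · have : Complex.exp (wv θ v * ((-Real.log (|(j : ℝ)| * H) + 2 * Real.log d +
            Real.log m₁ + Real.log m₂ : ℝ) : ℂ)) =
          Complex.exp (-wv θ v * (Real.log (|(j : ℝ)| * H) : ℝ)) *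
          Complex.exp (wv θ v * (2 * Real.log d : ℝ)) *
          Complex.exp (wv θ v * (Real.log m₁ + Real.log m₂ : ℝ)) := by
        rw [← Complex.exp_add, ← Complex.exp_add]
        congr 1
        push_cast
        ring
      rw [this]
      ring
    · simp
  simp_rw [key]
  rw [integral_finsetSum]
  · push_cast
    refine Finset.sum_congr rfl fun d hd => ?_
    have hd0 : 0 < d := Nat.pos_of_mem_divisors hd
    have hd' : (0 : ℝ) < d := by exact_mod_cast hd0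
    split_ifs
    · rw [integral_const_mul]
      push_cast
      congr 1
      have hy : 0 < |(j : ℝ)| * H / ((d : ℝ) ^ 2 * (m₁ * m₂)) := by
        positivity
      have h := hk.repr θ hθ (by linarith) _ hy
      push_cast at h
      rw [h]
      refine integral_congr_ae (Filter.Eventually.of_forall fun v => ?_)
      simp only
      congr 1
      have hlog : Real.log (|(j : ℝ)| * H / ((d : ℝ) ^ 2 * (m₁ * m₂))) =
          Real.log (|(j : ℝ)| * H) - 2 * Real.log d - Real.log m₁ - Real.log m₂ := by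
        rw [Real.log_div (by positivity)
          (by positivity), Real.log_mul (x := (d : ℝ) ^ 2) (by positivity) (by positivity),
          Real.log_mul (x := (m₁ : ℝ)) (by positivity) (by positivity), Real.log_pow]
        push_cast; ring
      have hne : ((|(j : ℝ)| * H / ((d : ℝ) ^ 2 * (m₁ * m₂)) : ℝ) : ℂ) ≠ 0 := by
        exact_mod_cast hy.ne'
      have h7 := Complex.cpow_def_of_ne_zero hne (-(((1 / 2 - θ : ℝ) : ℂ) + v * Complex.I))
      rw [← Complex.ofReal_log hy.le, hlog] at h7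
      push_cast at h7 ⊢
      rw [h7]
      unfold wv
      congr 1
      push_cast
      ring
    · simp
  · intro d _
    split_ifs
    · exact (kap_int hk θ hθ hθ' _).const_mul _
    · exact integrable_zero _ _ _

lemma an_norm (θ : ℝ) (hθ : 0 < θ) (R : ℕ) (j : ℤ) (U : ℝ) (n : ℕ) (v : ℝ) (hco : StCoef) :
    ‖an θ R j U n v‖ ≤ (n : ℝ) ^ 2 * Real.exp (-(π * U) * n) := by
  unfold an
  split_ifs with h
  · have hn : 0 < n := Nat.pos_of_ne_zero h.1.ne_zero
    have hn' : (1 : ℝ) ≤ n := by exact_mod_cast hn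
    rw [norm_mul, Complex.norm_real, Real.norm_eq_abs, abs_mul, abs_mul,
      abs_of_pos (Real.exp_pos _)]
    have h1 : ‖(n : ℂ) ^ (-(θ : ℂ) + v * Complex.I)‖ ≤ 1 := by
      rw [show (n : ℂ) = ((n : ℝ) : ℂ) by push_cast; rfl,
        Complex.norm_cpow_eq_rpow_re_of_pos (by linarith)]
      apply Real.rpow_le_one_of_one_le_of_nonpos hn'
      simp; linarith
    have h2 : |(ca n : ℝ)| ≤ (n : ℝ) ^ 2 := by
      refine (hco.bound n).trans ?_
      have hs : √(n : ℝ) ≤ n := by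
        rw [Real.sqrt_le_left (by linarith)]
        nlinarith
      have := dv_le n
      have h0 := dv_nonneg n
      calc dv n * √(n : ℝ) ≤ n * n := by gcongr
        _ = _ := by ring
    have h3 := chi_le j n
    have h4 : Real.exp (-π * n * U) = Real.exp (-(π * U) * n) := by congr 1; ring
    rw [h4]
    calc _ ≤ (n : ℝ) ^ 2 * 1 * Real.exp (-(π * U) * n) * 1 := by gcongr
      _ = _ := by ring
  · simp only [norm_zero]; positivity

lemma an_cont (θ : ℝ) (R : ℕ) (j : ℤ) (U : ℝ) (n : ℕ) : Continuous (an θ R j U n) := by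
  unfold an
  by_cases h : P R n
  · simp only [h, if_true]
    have hn : (n : ℂ) ≠ 0 := by
      have := h.1.ne_zero
      exact_mod_cast this
    refine continuous_const.mul ?_
    exact Continuous.const_cpow (by fun_prop) (Or.inl hn)
  · simp only [h, if_false]
    exact continuous_const

/-- exchange of the sum over `(n₁, n₂)` and the integral -/
lemma tsum_integral (hco : StCoef) (θ : ℝ) (hθ : 0 < θ) (R : ℕ) (j : ℤ) (U : ℝ) (hU : 0 < U)
    (K : ℝ → ℂ) (hK : Integrable K) :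
    ∑' t : ℕ × ℕ, ∫ v : ℝ, K v * (an θ R j U t.1 v * an θ R j U t.2 v) =
      ∫ v : ℝ, K v * (Tf θ v R j U) ^ 2 := by
  have hc : 0 < π * U := by positivity
  have hs := Real.summable_pow_mul_exp_neg_nat_mul 2 hc
  have hF : ∀ t : ℕ × ℕ, Integrable
      (fun v => K v * (an θ R j U t.1 v * an θ R j U t.2 v)) := by
    intro t
    refine Integrable.mono' (hK.norm.mul_const (((t.1 : ℝ) ^ 2 * Real.exp (-(π * U) * t.1)) *
      ((t.2 : ℝ) ^ 2 * Real.exp (-(π * U) * t.2))))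
      (hK.aestronglyMeasurable.mul
        ((an_cont θ R j U t.1).mul (an_cont θ R j U t.2)).aestronglyMeasurable) ?_
    refine Filter.Eventually.of_forall fun v => ?_
    rw [norm_mul, norm_mul]
    have h1 := an_norm θ hθ R j U t.1 v hco
    have h2 := an_norm θ hθ R j U t.2 v hco
    gcongr
  rw [integral_tsum_of_summable_integral_norm hF]
  · refine integral_congr_ae (Filter.Eventually.of_forall fun v => ?_)
    simp only
    rw [tsum_mul_left, sq, Tf_eq]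
    congr 1
    have hn : Summable (fun n => ‖an θ R j U n v‖) :=
      Summable.of_nonneg_of_le (fun _ => norm_nonneg _)
        (fun n => an_norm θ hθ R j U n v hco) hs
    exact (tsum_mul_tsum_of_summable_norm hn hn).symm
  · refine Summable.of_nonneg_of_le (fun _ => integral_nonneg fun _ => norm_nonneg _)
      (fun t => ?_) ((hs.mul_of_nonneg hs (fun _ => by positivity)
        (fun _ => by positivity)).mul_left (∫ v, ‖K v‖))
    rw [← integral_mul_const]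
    refine integral_mono_of_nonneg (Filter.Eventually.of_forall fun _ => norm_nonneg _)
      (hK.norm.mul_const _) (Filter.Eventually.of_forall fun v => ?_)
    simp only
    rw [norm_mul, norm_mul]
    have h1 := an_norm θ hθ R j U t.1 v hco
    have h2 := an_norm θ hθ R j U t.2 v hco
    gcongr

lemma lam_mul (hco : StCoef) (a b : ℕ) (h : a.Coprime b) : lam (a * b) = lam a * lam b := by
  unfold lam
  rw [hco.mul a b h]
  push_cast
  rw [Real.sqrt_mul (by positivity)]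
  ring

lemma chi_mul (j : ℤ) (a b : ℕ) (ha : a ≠ 0) (hb : b ≠ 0) :
    chi j (a * b) = chi j a * chi j b := by
  unfold chi
  have : NeZero a := ⟨ha⟩
  have : NeZero b := ⟨hb⟩
  rw [jacobiSym.mul_right]
  push_cast
  rfl

/-- `lam n · n^w = a_n n^{-θ+iv}` -/
lemma lam_cpow (θ v : ℝ) (n : ℕ) (hn : 0 < n) :
    (lam n : ℂ) * Complex.exp (wv θ v * (Real.log n : ℝ)) =
      (ca n : ℂ) * (n : ℂ) ^ (-(θ : ℂ) + v * Complex.I) := by
  have hn' : (0 : ℝ) < n := by exact_mod_cast hn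
  have hne : (n : ℂ) ≠ 0 := by exact_mod_cast hn'.ne'
  have hsq : √(n : ℝ) = Real.exp (Real.log n / 2) := by
    rw [Real.sqrt_eq_rpow, Real.rpow_def_of_pos hn']
    congr 1; ring
  have hl : (lam n : ℂ) = (ca n : ℂ) * Complex.exp (-(Real.log n : ℝ) / 2) := by
    unfold lam
    rw [hsq, div_eq_mul_inv, ← Real.exp_neg]
    push_cast
    congr 2
    ring
  rw [hl, mul_assoc, ← Complex.exp_add, Complex.cpow_def_of_ne_zero hne,
    show (n : ℂ) = ((n : ℝ) : ℂ) by push_cast; rfl, ← Complex.ofReal_log hn'.le]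
  congr 2
  unfold wv
  push_cast
  ring

lemma Fe_eq_integral (hco : StCoef) (hk : StKer) (θ H : ℝ) (hθ : 0 < θ) (hθ' : θ ≤ 1 / 8)
    (hH : 0 < H) (j : ℤ) (g e r : ℕ) (hj : j ≠ 0) (u : ℝ)
    (hge : (Squarefree g ∧ g.Coprime r) ∧ Squarefree e ∧ e.Coprime (g * r)) (n₁ n₂ : ℕ) :
    ((Fe H r j u g e (e * n₁) (e * n₂) : ℝ) : ℂ) =
      ∫ v : ℝ, Kc θ H j g e v *
        (an θ (e * g * r) j (u * g * e) n₁ v * an θ (e * g * r) j (u * g * e) n₂ v) := by
  classical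
  unfold Fe
  have hiff : (Cnd r g (e * n₁) (e * n₂) ∧ e ∣ e * n₁ ∧ e ∣ e * n₂) ↔
      (P (e * g * r) n₁ ∧ P (e * g * r) n₂) := by
    rw [cnd_mul]
    simp only [dvd_mul_right, and_true]
    exact ⟨fun h => h.2, fun h => ⟨hge, h⟩⟩
  by_cases h : P (e * g * r) n₁ ∧ P (e * g * r) n₂
  · rw [if_pos (hiff.mpr h)]
    obtain ⟨h₁, h₂⟩ := h
    have hn₁ : 0 < n₁ := Nat.pos_of_ne_zero h₁.1.ne_zero
    have hn₂ : 0 < n₂ := Nat.pos_of_ne_zero h₂.1.ne_zero
    have he : 0 < e := Nat.pos_of_ne_zero hge.2.1.ne_zero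
    have c₁ : e.Coprime n₁ := by
      have := h₁.2
      rw [mul_assoc, Nat.coprime_mul_iff_right] at this
      exact this.1.symm
    have c₂ : e.Coprime n₂ := by
      have := h₂.2
      rw [mul_assoc, Nat.coprime_mul_iff_right] at this
      exact this.1.symm
    unfold base
    rw [lam_mul hco e n₁ c₁, lam_mul hco e n₂ c₂, chi_mul j _ _ (by positivity) (by positivity),
      chi_mul j e n₁ (by positivity) (by positivity), chi_mul j e n₂ (by positivity)
      (by positivity), Complex.ofReal_mul, Complex.ofReal_mul, Complex.ofReal_mul,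
      sum_Gk hk θ H hθ hθ' hH j g hj (e * n₁) (e * n₂) (by positivity) (by positivity)]
    rw [← integral_const_mul, ← integral_mul_const, ← integral_const_mul]
    refine integral_congr_ae (Filter.Eventually.of_forall fun v => ?_)
    simp only
    unfold an Kc
    rw [if_pos h₁, if_pos h₂]
    have e1 : Complex.exp (wv θ v * (Real.log (e * n₁ : ℕ) + Real.log (e * n₂ : ℕ) : ℝ)) =
        Complex.exp (wv θ v * (2 * Real.log e : ℝ)) *
        Complex.exp (wv θ v * (Real.log n₁ : ℝ)) * Complex.exp (wv θ v * (Real.log n₂ : ℝ)) := by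
      rw [← Complex.exp_add, ← Complex.exp_add]
      have he' : (0 : ℝ) < e := by exact_mod_cast he
      have h₁' : (0 : ℝ) < n₁ := by exact_mod_cast hn₁
      have h₂' : (0 : ℝ) < n₂ := by exact_mod_cast hn₂
      congr 1
      push_cast
      rw [Real.log_mul he'.ne' h₁'.ne', Real.log_mul he'.ne' h₂'.ne']
      push_cast
      ring
    have e2 : Real.exp (-π * g * u * ((e * n₁ : ℕ) + (e * n₂ : ℕ))) =
        Real.exp (-π * n₁ * (u * g * e)) * Real.exp (-π * n₂ * (u * g * e)) := by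
      rw [← Real.exp_add]
      congr 1
      push_cast
      ring
    have e3 := lam_cpow θ v n₁ hn₁
    have e4 := lam_cpow θ v n₂ hn₂
    rw [e1, e2]
    clear e1 e2
    generalize Complex.exp (wv θ v * (Real.log n₁ : ℝ)) = x1 at *
    generalize Complex.exp (wv θ v * (Real.log n₂ : ℝ)) = x2 at *
    generalize (n₁ : ℂ) ^ (-(θ : ℂ) + v * Complex.I) = y1 at *
    generalize (n₂ : ℂ) ^ (-(θ : ℂ) + v * Complex.I) = y2 at *
    generalize Complex.exp (wv θ v * (2 * Real.log e : ℝ)) = z1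
    generalize Complex.exp (-wv θ v * (Real.log (|(j : ℝ)| * H) : ℝ)) = z2
    generalize Real.exp (-π * n₁ * (u * g * e)) = z3
    generalize Real.exp (-π * n₂ * (u * g * e)) = z4
    push_cast
    linear_combination ((ArithmeticFunction.moebius e : ℂ) * (ca g : ℂ) ^ 2 *
      (lam e : ℂ) ^ 2 * (chi j e : ℂ) ^ 2 * kapc θ v * z2 * z1 * Dv θ v j g *
      (chi j n₁ * z3) * (chi j n₂ * z4)) *
      ((lam n₂ : ℂ) * x2 * e3 + (ca n₁ : ℂ) * y1 * e4)
  · rw [if_neg (fun h' => h (hiff.mp h'))]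
    have : ∀ v, an θ (e * g * r) j (u * g * e) n₁ v * an θ (e * g * r) j (u * g * e) n₂ v = 0 := by
      intro v
      unfold an
      by_cases h₁ : P (e * g * r) n₁
      · rw [if_neg (fun h₂ => h ⟨h₁, h₂⟩)]; simp
      · rw [if_neg h₁]; simp
    simp [this]

lemma one_pair (hco : StCoef) (hk : StKer) (θ H : ℝ) (hθ : 0 < θ) (hθ' : θ ≤ 1 / 8)
    (hH : 0 < H) (j : ℤ) (g e r : ℕ) (hj : j ≠ 0) (u : ℝ) (hu : 0 < u) (C : ℝ) (hC : 0 < C)
    (hb : ∀ v : ℝ, ‖kapc θ v‖ ≤ C * Real.exp (-3 * π * |v|)) :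
    ‖∑' m : ℕ × ℕ, Fe H r j u g e m.1 m.2‖ₑ ≤
      ENNReal.ofReal (C * (|(j : ℝ)| * H) ^ (-1 / 2 + θ)) *
      (ENNReal.ofReal (g * dv g ^ 3 * (dv e ^ 2 * (e : ℝ) ^ (1 - 2 * θ))) *
          ∫⁻ v : ℝ, ENNReal.ofReal (Real.exp (-3 * π * |v|) *
            ‖Tf θ v (e * g * r) j (u * g * e)‖ ^ 2)) := by
  by_cases hge : (Squarefree g ∧ g.Coprime r) ∧ Squarefree e ∧ e.Coprime (g * r)
  · have he : 0 < e := Nat.pos_of_ne_zero hge.2.1.ne_zero
    have hg : 0 < g := Nat.pos_of_ne_zero hge.1.1.ne_zero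
    have hU : 0 < u * g * e := by positivity
    -- reindex
    have hinj : Function.Injective (fun n : ℕ × ℕ => (e * n.1, e * n.2)) := by
      rintro ⟨a, b⟩ ⟨c, d⟩ h
      simp only [Prod.mk.injEq, mul_eq_mul_left_iff] at h
      obtain ⟨h1, h2⟩ := h
      ext <;> simp <;> omega
    have hre : ∑' m : ℕ × ℕ, Fe H r j u g e m.1 m.2 =
        ∑' n : ℕ × ℕ, Fe H r j u g e (e * n.1) (e * n.2) := by
      refine (hinj.tsum_eq (f := fun m : ℕ × ℕ => Fe H r j u g e m.1 m.2) ?_).symm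
      rintro ⟨m₁, m₂⟩ hm
      have h : Cnd r g m₁ m₂ ∧ e ∣ m₁ ∧ e ∣ m₂ := by
        by_contra h
        exact hm (if_neg h)
      obtain ⟨a, ha⟩ := h.2.1
      obtain ⟨b, hb⟩ := h.2.2
      exact ⟨(a, b), by simp [ha, hb]⟩
    have hcast : ‖∑' m : ℕ × ℕ, Fe H r j u g e m.1 m.2‖ₑ =
        ‖∫ v : ℝ, Kc θ H j g e v * (Tf θ v (e * g * r) j (u * g * e)) ^ 2‖ₑ := by
      rw [hre, ← tsum_integral hco θ hθ (e * g * r) j (u * g * e) hU _
        (Kc_int hco hk θ H hθ hθ' hH j g e hj he)]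
      simp_rw [← Fe_eq_integral hco hk θ H hθ hθ' hH j g e r hj u hge]
      rw [← Complex.ofReal_tsum]
      simp [enorm_eq_nnnorm]
    rw [hcast, ← mul_assoc, ← ENNReal.ofReal_mul (by positivity), ← lintegral_const_mul']
    · refine (enorm_integral_le_lintegral_enorm _).trans (lintegral_mono fun v => ?_)
      rw [← ENNReal.ofReal_mul (by
        have := dv_nonneg g
        have := dv_nonneg e
        positivity), ← ofReal_norm]
      apply ENNReal.ofReal_le_ofReal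
      rw [norm_mul, norm_pow, ← mul_assoc]
      gcongr
      exact Kc_norm hco θ H hθ hθ' hH j g e hj he v C hC (hb v)
    · exact ENNReal.ofReal_ne_top
  · have : ∀ m : ℕ × ℕ, Fe H r j u g e m.1 m.2 = 0 := by
      rintro ⟨m₁, m₂⟩
      simp only [Fe]
      rw [if_neg]
      rintro ⟨h1, ⟨a, ha⟩, ⟨b, hb⟩⟩
      subst ha hb
      rw [cnd_mul] at h1
      exact hge h1.1
    simp [this]

end H2

theorem pfStSep (hco : StCoef) (hk : StKer) : StSep := by
  obtain ⟨C, hC, hb⟩ := hk.kbound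
  refine ⟨C, hC, fun θ hθ hθ' H r j u hH hr hj hu => ?_⟩
  refine (H2.Aj_le hco hk H r j u hu).trans ?_
  rw [← ENNReal.tsum_mul_left]
  refine ENNReal.tsum_le_tsum fun g => ?_
  rw [← ENNReal.tsum_mul_left]
  refine ENNReal.tsum_le_tsum fun e => ?_
  exact H2.one_pair hco hk θ H hθ hθ' hH j g e r hj u hu C hC
    (fun v => hb θ v hθ (by linarith))

end P004G
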