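import Vale.Agent.P004G.Iface
import Vale.Agent.P004.I1

/-!
# P004G, module I1: reduction of `sumJ` to squarefree-supported sums
-/

open Real MeasureTheory Set
open scoped ENNReal

namespace P004G

namespace I1Mod

export P004.I1Mod (fact_eq decomp_unique decomp_exists tsum_decomp cs abs_chi_le chi_mul dv_nonneg
  dv_le)

variable [Crv]

lemma summable_F (hC : StCoef) (m : ℤ) {u : ℝ} (hu : 0 < u) :
    Summable fun n : ℕ => (ca n : ℝ) * chi m n * Real.exp (-π * n * u) := by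
  have h := Real.summable_pow_mul_exp_neg_nat_mul 2 (r := π * u) (by positivity)
  refine Summable.of_norm_bounded h fun n => ?_
  rw [norm_mul, norm_mul, Real.norm_eq_abs, Real.norm_eq_abs, Real.norm_eq_abs, Real.abs_exp]
  have h1 := hC.bound n
  have h2 := abs_chi_le m n
  have h3 : dv n * √(n : ℝ) ≤ (n : ℝ) ^ 2 := by
    rcases Nat.eq_zero_or_pos n with rfl | hn
    · simp
    have hn' : (1 : ℝ) ≤ n := by exact_mod_cast hn
    have : √(n : ℝ) ≤ n := by
      rw [Real.sqrt_le_left (by positivity)]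
      nlinarith
    calc dv n * √(n : ℝ) ≤ n * n := by
          gcongr
          exact dv_le n
      _ = (n : ℝ) ^ 2 := by ring
  calc |(ca n : ℝ)| * |chi m n| * Real.exp (-π * n * u)
      ≤ (n : ℝ) ^ 2 * 1 * Real.exp (-π * n * u) := by
        gcongr
        exact h1.trans h3
    _ = (n : ℝ) ^ 2 * Real.exp (-(π * u) * n) := by ring_nf

lemma theta_eq (hC : StCoef) (m : ℤ) {u : ℝ} (hu : 0 < u) :
    theta m u = 4 * ∑' r : {r : ℕ // Powerful r},
      (ca r : ℝ) * chi m r * Uf m r (r * u) := by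
  unfold theta
  rw [tsum_decomp _ (summable_F hC m hu) (by simp [hC.zero])]
  congr 1
  refine tsum_congr fun r => ?_
  unfold Uf
  rw [← tsum_mul_left]
  refine tsum_congr fun k => ?_
  split_ifs with h
  · have hk0 : k ≠ 0 := h.1.ne_zero
    rw [hC.mul _ _ h.2.symm, chi_mul m r.2.1 hk0]
    push_cast
    rw [show -π * ((r : ℝ) * k) * u = -π * k * (r * u) by ring]
    ring
  · rw [mul_zero]

lemma measurable_Uf (m : ℤ) (r : ℕ) : Measurable fun u => Uf m r u := by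
  unfold Uf
  apply Measurable.tsum
  intro n
  split_ifs
  · apply Measurable.mul measurable_const
    apply Real.measurable_exp.comp
    fun_prop
  · exact measurable_const

/-! ### one `r` -/

lemma scale (X r : ℕ) (hX : 1 ≤ X) (hr : 0 < r) (θ : ℝ) (hθ : 0 < θ) (m : ℤ) :
    ∫⁻ u in Ioi (1 / (3 * X) : ℝ), ENNReal.ofReal (Uf m r (r * u) ^ 2 * u) ≤
      ENNReal.ofReal ((3 * X : ℝ) ^ (2 * θ) * (r : ℝ) ^ (-2 - 2 * θ)) *
        ∫⁻ u in Ioi (1 / (3 * X) : ℝ), ENNReal.ofReal (Uf m r u ^ 2 * u ^ (1 + 2 * θ)) := by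
  set a : ℝ := 1 / (3 * X) with ha
  have hXR : (1 : ℝ) ≤ X := by exact_mod_cast hX
  have ha0 : 0 < a := by positivity
  have hrR : (1 : ℝ) ≤ r := by exact_mod_cast hr
  have hr0 : (0 : ℝ) < r := by linarith
  set G : ℝ → ℝ≥0∞ := fun w => ENNReal.ofReal (Uf m r w ^ 2 * w ^ (1 + 2 * θ)) with hG
  have himage : (fun u : ℝ => (r : ℝ) * u) '' (Ioi a) = Ioi ((r : ℝ) * a) := by
    rw [Set.image_mul_left_Ioi hr0]
  have hder : ∀ w ∈ Ioi a, HasDerivWithinAt (fun u : ℝ => (r : ℝ) * u) (r : ℝ) (Ioi a) w := by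
    intro w _
    have := ((hasDerivAt_id w).const_mul (r : ℝ)).hasDerivWithinAt (s := Ioi a)
    simpa using this
  have hinj : Set.InjOn (fun u : ℝ => (r : ℝ) * u) (Ioi a) :=
    (mul_right_injective₀ hr0.ne').injOn
  have hcv := lintegral_image_eq_lintegral_abs_deriv_mul measurableSet_Ioi hder hinj G
  rw [himage] at hcv
  calc ∫⁻ u in Ioi a, ENNReal.ofReal (Uf m r (r * u) ^ 2 * u)
      ≤ ∫⁻ u in Ioi a, ENNReal.ofReal ((3 * X : ℝ) ^ (2 * θ) * (r : ℝ) ^ (-2 - 2 * θ)) *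
          (ENNReal.ofReal |(r : ℝ)| * G (r * u)) := by
        apply setLIntegral_mono' measurableSet_Ioi
        intro u hu
        have hu0 : 0 < u := ha0.trans hu
        simp only [hG]
        rw [abs_of_pos hr0, ← ENNReal.ofReal_mul hr0.le, ← ENNReal.ofReal_mul (by positivity)]
        apply ENNReal.ofReal_le_ofReal
        have e1 : (r * u : ℝ) ^ (1 + 2 * θ) = r * (r : ℝ) ^ (2 * θ) * (u * u ^ (2 * θ)) := by
          rw [Real.mul_rpow hr0.le hu0.le, Real.rpow_add hr0, Real.rpow_add hu0, Real.rpow_one,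
            Real.rpow_one]
        have e2 : (r : ℝ) ^ (-2 - 2 * θ) * r * (r * (r : ℝ) ^ (2 * θ)) = 1 := by
          calc (r : ℝ) ^ (-2 - 2 * θ) * r * (r * (r : ℝ) ^ (2 * θ)) =
              (r : ℝ) ^ (-2 - 2 * θ) * (r : ℝ) ^ (2 : ℝ) * (r : ℝ) ^ (2 * θ) := by
                rw [Real.rpow_two]; ring
            _ = 1 := by
                rw [← Real.rpow_add hr0, ← Real.rpow_add hr0]
                have : -2 - 2 * θ + 2 + 2 * θ = 0 := by ring
                rw [this, Real.rpow_zero]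
        have e3 : (1 : ℝ) ≤ (3 * X : ℝ) ^ (2 * θ) * u ^ (2 * θ) := by
          rw [← Real.mul_rpow (by positivity) hu0.le]
          apply Real.one_le_rpow _ (by positivity)
          have : a < u := hu
          rw [ha, div_lt_iff₀ (by positivity)] at this
          linarith
        calc Uf m r (r * u) ^ 2 * u = Uf m r (r * u) ^ 2 * u * 1 := by ring
          _ ≤ Uf m r (r * u) ^ 2 * u * ((3 * X : ℝ) ^ (2 * θ) * u ^ (2 * θ)) := by gcongr
          _ = Uf m r (r * u) ^ 2 * u * ((3 * X : ℝ) ^ (2 * θ) * u ^ (2 * θ)) *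
              ((r : ℝ) ^ (-2 - 2 * θ) * r * (r * (r : ℝ) ^ (2 * θ))) := by rw [e2, mul_one]
          _ = _ := by rw [e1]; ring
    _ = ENNReal.ofReal ((3 * X : ℝ) ^ (2 * θ) * (r : ℝ) ^ (-2 - 2 * θ)) *
          ∫⁻ u in Ioi ((r : ℝ) * a), G u := by
        rw [lintegral_const_mul' _ _ ENNReal.ofReal_ne_top, hcv]
    _ ≤ _ := by
        gcongr
        nlinarith

/-- the pointwise bound -/
lemma pointwise (hC : StCoef) (θ : ℝ) (m : ℤ) {u : ℝ} (hu : 0 < u) :
    ENNReal.ofReal (theta m u ^ 2 * u) ≤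
      (16 * ∑' r : {r : ℕ // Powerful r}, ENNReal.ofReal ((r : ℝ) ^ (-1 / 2 - θ / 2))) *
        ∑' r : {r : ℕ // Powerful r}, ENNReal.ofReal (dv r ^ 2 * (r : ℝ) ^ (3 / 2 + θ / 2)) *
          ENNReal.ofReal (Uf m r (r * u) ^ 2 * u) := by
  have hr0 : ∀ r : {r : ℕ // Powerful r}, (0 : ℝ) < r := fun r =>
    Nat.cast_pos.2 (Nat.pos_of_ne_zero r.2.1)
  set b : {r : ℕ // Powerful r} → ℝ≥0∞ := fun r => ENNReal.ofReal ((r : ℝ) ^ (-1 / 2 - θ / 2))
    with hb
  set x : {r : ℕ // Powerful r} → ℝ≥0∞ := fun r => ‖(ca r : ℝ) * chi m r * Uf m r (r * u)‖ₑ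
    with hx
  have hpos : ∀ r : {r : ℕ // Powerful r}, 0 < (r : ℝ) ^ (-1 / 2 - θ / 2) := fun r =>
    Real.rpow_pos_of_pos (hr0 r) _
  have hcs := cs b x (fun r => (ENNReal.ofReal_pos.2 (hpos r)).ne') fun r => ENNReal.ofReal_ne_top
  have h1 : ENNReal.ofReal (theta m u ^ 2) ≤ 16 * (∑' r, x r) ^ 2 := by
    have e1 : ENNReal.ofReal (theta m u ^ 2) = ‖theta m u‖ₑ ^ 2 := by
      rw [Real.enorm_eq_ofReal_abs, ← ENNReal.ofReal_pow (abs_nonneg _), sq_abs]
    have e2 : ‖theta m u‖ₑ ≤ 4 * ∑' r, x r := by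
      rw [theta_eq hC m hu, enorm_mul]
      have : ‖(4 : ℝ)‖ₑ = 4 := by
        rw [Real.enorm_eq_ofReal_abs]
        norm_num
      rw [this]
      gcongr
      exact enorm_tsum_le_tsum_enorm
    rw [e1]
    calc ‖theta m u‖ₑ ^ 2 ≤ (4 * ∑' r, x r) ^ 2 := by gcongr
      _ = 16 * (∑' r, x r) ^ 2 := by rw [mul_pow]; norm_num
  have h2 : ∀ r, (b r)⁻¹ * x r ^ 2 ≤
      ENNReal.ofReal (dv r ^ 2 * (r : ℝ) ^ (3 / 2 + θ / 2)) *
        ENNReal.ofReal (Uf m r (r * u) ^ 2) := by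
    intro r
    have hdv := dv_nonneg (r : ℕ)
    simp only [hb, hx]
    rw [← ENNReal.ofReal_inv_of_pos (hpos r), Real.enorm_eq_ofReal_abs,
      ← ENNReal.ofReal_pow (abs_nonneg _), sq_abs,
      ← ENNReal.ofReal_mul (inv_nonneg.2 (hpos r).le), ← ENNReal.ofReal_mul (by positivity)]
    apply ENNReal.ofReal_le_ofReal
    have e1 : ((r : ℝ) ^ (-1 / 2 - θ / 2))⁻¹ = (r : ℝ) ^ (1 / 2 + θ / 2) := by
      rw [← Real.rpow_neg (hr0 r).le]
      congr 1; ring
    have e2 : (r : ℝ) ^ (3 / 2 + θ / 2) = (r : ℝ) ^ (1 / 2 + θ / 2) * r := by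
      rw [← Real.rpow_add_one (hr0 r).ne']
      congr 1; ring
    have e3 : (ca r : ℝ) ^ 2 ≤ dv r ^ 2 * r := by
      have := hC.bound r
      calc (ca r : ℝ) ^ 2 = |(ca r : ℝ)| ^ 2 := (sq_abs _).symm
        _ ≤ (dv r * √(r : ℝ)) ^ 2 := by gcongr
        _ = dv r ^ 2 * r := by rw [mul_pow, Real.sq_sqrt (hr0 r).le]
    have e4 : chi m r ^ 2 ≤ 1 := by
      have := abs_chi_le m r
      rw [← sq_abs]
      exact pow_le_one₀ (abs_nonneg _) this
    rw [e1, e2]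
    calc (r : ℝ) ^ (1 / 2 + θ / 2) * ((ca r : ℝ) * chi m r * Uf m r (r * u)) ^ 2
        = (r : ℝ) ^ (1 / 2 + θ / 2) * ((ca r : ℝ) ^ 2 * chi m r ^ 2 * Uf m r (r * u) ^ 2) := by
          ring
      _ ≤ (r : ℝ) ^ (1 / 2 + θ / 2) * ((dv r ^ 2 * r) * 1 * Uf m r (r * u) ^ 2) := by gcongr
      _ = _ := by ring
  have h3 : (∑' r : {r : ℕ // Powerful r},
        ENNReal.ofReal (dv r ^ 2 * (r : ℝ) ^ (3 / 2 + θ / 2)) *
        ENNReal.ofReal (Uf m r (r * u) ^ 2)) * ENNReal.ofReal u =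
      ∑' r : {r : ℕ // Powerful r},
          ENNReal.ofReal (dv r ^ 2 * (r : ℝ) ^ (3 / 2 + θ / 2)) *
          ENNReal.ofReal (Uf m r (r * u) ^ 2 * u) := by
    rw [← ENNReal.tsum_mul_right]
    refine tsum_congr fun r => ?_
    rw [ENNReal.ofReal_mul (p := Uf m r (r * u) ^ 2) (by positivity), mul_assoc]
  calc ENNReal.ofReal (theta m u ^ 2 * u)
      = ENNReal.ofReal (theta m u ^ 2) * ENNReal.ofReal u := ENNReal.ofReal_mul (by positivity)
    _ ≤ (16 * ((∑' r, b r) * ∑' r : {r : ℕ // Powerful r},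
        ENNReal.ofReal (dv r ^ 2 * (r : ℝ) ^ (3 / 2 + θ / 2)) *
        ENNReal.ofReal (Uf m r (r * u) ^ 2))) * ENNReal.ofReal u := by
        refine mul_le_mul' (h1.trans (mul_le_mul' le_rfl (hcs.trans (mul_le_mul' le_rfl ?_)))) le_rfl
        exact ENNReal.tsum_le_tsum h2
    _ = (16 * ∑' r, b r) * ∑' r : {r : ℕ // Powerful r},
          ENNReal.ofReal (dv r ^ 2 * (r : ℝ) ^ (3 / 2 + θ / 2)) *
          ENNReal.ofReal (Uf m r (r * u) ^ 2 * u) := by
        rw [← h3]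
        ring

lemma one_m (hC : StCoef) (X : ℕ) (hX : 1 ≤ X) (θ : ℝ) (hθ : 0 < θ) (m : ℤ) :
    ∫⁻ u in Ioi (1 / (3 * X) : ℝ), ENNReal.ofReal (theta m u ^ 2 * u) ≤
      (16 * ∑' r : {r : ℕ // Powerful r}, ENNReal.ofReal ((r : ℝ) ^ (-1 / 2 - θ / 2))) *
        (ENNReal.ofReal ((3 * X : ℝ) ^ (2 * θ)) * ∑' r : {r : ℕ // Powerful r},
          ENNReal.ofReal (dv r ^ 2 * (r : ℝ) ^ (-1 / 2 - 3 / 2 * θ)) *
          ∫⁻ u in Ioi (1 / (3 * X) : ℝ), ENNReal.ofReal (Uf m r u ^ 2 * u ^ (1 + 2 * θ))) := by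
  set a : ℝ := 1 / (3 * X) with ha
  have hXR : (1 : ℝ) ≤ X := by exact_mod_cast hX
  have ha0 : 0 < a := by positivity
  have hr0 : ∀ r : {r : ℕ // Powerful r}, (0 : ℝ) < r := fun r =>
    Nat.cast_pos.2 (Nat.pos_of_ne_zero r.2.1)
  have hm : ∀ r : {r : ℕ // Powerful r}, Measurable fun u : ℝ =>
      ENNReal.ofReal (Uf m r (r * u) ^ 2 * u) := by
    intro r
    apply ENNReal.measurable_ofReal.comp
    apply Measurable.mul
    · exact ((measurable_Uf m r).comp (measurable_const_mul (r : ℝ))).pow_const 2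
    · exact measurable_id
  have hm2 : ∀ r : {r : ℕ // Powerful r}, Measurable fun u : ℝ =>
      ENNReal.ofReal (dv r ^ 2 * (r : ℝ) ^ (3 / 2 + θ / 2)) *
      ENNReal.ofReal (Uf m r (r * u) ^ 2 * u) := fun r => (hm r).const_mul _
  calc ∫⁻ u in Ioi a, ENNReal.ofReal (theta m u ^ 2 * u)
      ≤ ∫⁻ u in Ioi a,
        (16 * ∑' r : {r : ℕ // Powerful r}, ENNReal.ofReal ((r : ℝ) ^ (-1 / 2 - θ / 2))) *
        ∑' r : {r : ℕ // Powerful r}, ENNReal.ofReal (dv r ^ 2 * (r : ℝ) ^ (3 / 2 + θ / 2)) *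
          ENNReal.ofReal (Uf m r (r * u) ^ 2 * u) := by
        apply setLIntegral_mono' measurableSet_Ioi
        intro u hu
        exact pointwise hC θ m (ha0.trans hu)
    _ = (16 * ∑' r : {r : ℕ // Powerful r}, ENNReal.ofReal ((r : ℝ) ^ (-1 / 2 - θ / 2))) *
        ∑' r : {r : ℕ // Powerful r}, ENNReal.ofReal (dv r ^ 2 * (r : ℝ) ^ (3 / 2 + θ / 2)) *
          ∫⁻ u in Ioi a, ENNReal.ofReal (Uf m r (r * u) ^ 2 * u) := by
        rw [lintegral_const_mul _ (Measurable.tsum hm2), lintegral_tsum fun r => (hm2 r).aemeasurable]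
        congr 1
        refine tsum_congr fun r => ?_
        rw [lintegral_const_mul _ (hm r)]
    _ ≤ _ := by
        refine mul_le_mul' le_rfl ?_
        rw [← ENNReal.tsum_mul_left]
        refine ENNReal.tsum_le_tsum fun r => ?_
        have hdv := dv_nonneg (r : ℕ)
        have hr1 : 0 < (r : ℕ) := Nat.pos_of_ne_zero r.2.1
        refine (mul_le_mul' le_rfl (scale X r hX hr1 θ hθ m)).trans ?_
        rw [← mul_assoc, ← mul_assoc, ← ENNReal.ofReal_mul (by positivity),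
          ← ENNReal.ofReal_mul (by positivity)]
        refine mul_le_mul' (ENNReal.ofReal_le_ofReal (le_of_eq ?_)) le_rfl
        have e : (r : ℝ) ^ (3 / 2 + θ / 2) * (r : ℝ) ^ (-2 - 2 * θ) =
            (r : ℝ) ^ (-1 / 2 - 3 / 2 * θ) := by
          rw [← Real.rpow_add (hr0 r)]
          congr 1; ring
        rw [← e]
        ring

end I1Mod

open I1Mod in
/-- Module I1. -/
theorem pfDecomp [Crv] (hC : StCoef) (hFold : StFold) (hDiv : StDiv) : StDecomp := by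
  obtain ⟨k₀, hk₀, C₁, hC₁, hF⟩ := hFold
  obtain ⟨C, hC0, A, hA⟩ := hDiv.2 0
  refine ⟨k₀, hk₀, C₁ * 16 * (C * 2 ^ A), by positivity, A, ?_⟩
  intro θ hθ hθ8 X hX
  have hk₀R : (1 : ℝ) ≤ k₀ := by exact_mod_cast hk₀
  have hXR : (1 : ℝ) ≤ X := by exact_mod_cast hX
  set a : ℝ := 1 / (3 * (k₀ * X)) with ha
  have ha0 : 0 < a := by positivity
  have hJz : ∀ m ∈ sqZ X, Jz m ≤ ENNReal.ofReal C₁ *
      ∫⁻ u in Ioi a, ENNReal.ofReal (theta m u ^ 2 * u) := by
    intro m hm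
    obtain ⟨h1, h2⟩ := mem_sqZ.1 hm
    refine (hF m h2).trans ?_
    have h3 : |(m : ℝ)| = (m.natAbs : ℝ) := by
      rw [Nat.cast_natAbs]
      push_cast
      rfl
    have h4 : (1 : ℝ) ≤ |(m : ℝ)| := by
      rw [h3]
      have : m.natAbs ≠ 0 := by
        rw [Int.natAbs_ne_zero]
        exact h2.ne_zero
      exact_mod_cast Nat.one_le_iff_ne_zero.2 this
    have h5 : |(m : ℝ)| ≤ X := by
      rw [h3]
      exact_mod_cast h1
    have h6 : a ≤ 1 / (3 * (k₀ * |(m : ℝ)|)) := by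
      rw [ha]
      apply one_div_le_one_div_of_le (by positivity)
      gcongr
    refine mul_le_mul' le_rfl ?_
    exact lintegral_mono_set (Set.Ioi_subset_Ioi h6)
  have hb : ∑' r : {r : ℕ // Powerful r}, ENNReal.ofReal ((r : ℝ) ^ (-1 / 2 - θ / 2)) ≤
      ENNReal.ofReal (C * 2 ^ A * (1 / θ) ^ A) := by
    have h := hA (θ / 2) (by positivity) (by linarith)
    simp only [pow_zero, one_mul] at h
    refine h.trans (le_of_eq ?_)
    congr 1
    rw [mul_assoc, ← mul_pow]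
    congr 2
    field_simp
  have hsum : ∀ r : {r : ℕ // Powerful r},
      ∑ m ∈ sqZ X, ∫⁻ u in Ioi a, ENNReal.ofReal (Uf m r u ^ 2 * u ^ (1 + 2 * θ)) =
      ∫⁻ u in Ioi a, ENNReal.ofReal ((∑ m ∈ sqZ X, Uf m r u ^ 2) * u ^ (1 + 2 * θ)) := by
    intro r
    rw [← lintegral_finsetSum]
    · apply setLIntegral_congr_fun measurableSet_Ioi
      intro u hu
      have hu0 : 0 < u := lt_trans (by positivity) hu
      simp only
      rw [Finset.sum_mul, ENNReal.ofReal_sum_of_nonneg]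
      intro m _
      positivity
    · intro m _
      apply ENNReal.measurable_ofReal.comp
      apply Measurable.mul
      · exact (measurable_Uf m r).pow_const 2
      · exact measurable_id.pow_const _
  rw [sumJ_eq]
  calc ∑ m ∈ sqZ X, Jz m
      ≤ ∑ m ∈ sqZ X, ENNReal.ofReal C₁ * ((16 * ENNReal.ofReal (C * 2 ^ A * (1 / θ) ^ A)) *
        (ENNReal.ofReal ((3 * (k₀ * X) : ℝ) ^ (2 * θ)) * ∑' r : {r : ℕ // Powerful r},
          ENNReal.ofReal (dv r ^ 2 * (r : ℝ) ^ (-1 / 2 - 3 / 2 * θ)) *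
          ∫⁻ u in Ioi a, ENNReal.ofReal (Uf m r u ^ 2 * u ^ (1 + 2 * θ)))) := by
        apply Finset.sum_le_sum
        intro m hm
        refine (hJz m hm).trans (mul_le_mul' le_rfl ?_)
        have h1 := one_m hC (k₀ * X) (Nat.mul_pos hk₀ hX) θ hθ m
        rw [Nat.cast_mul, ← ha] at h1
        refine h1.trans ?_
        exact mul_le_mul' (mul_le_mul' le_rfl hb) le_rfl
    _ = (ENNReal.ofReal C₁ * (16 * ENNReal.ofReal (C * 2 ^ A * (1 / θ) ^ A)) *
          ENNReal.ofReal ((3 * (k₀ * X) : ℝ) ^ (2 * θ))) *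
          ∑ m ∈ sqZ X, ∑' r : {r : ℕ // Powerful r},
          ENNReal.ofReal (dv r ^ 2 * (r : ℝ) ^ (-1 / 2 - 3 / 2 * θ)) *
          ∫⁻ u in Ioi a, ENNReal.ofReal (Uf m r u ^ 2 * u ^ (1 + 2 * θ)) := by
        rw [Finset.mul_sum]
        refine Finset.sum_congr rfl fun m _ => ?_
        ring
    _ = (ENNReal.ofReal C₁ * (16 * ENNReal.ofReal (C * 2 ^ A * (1 / θ) ^ A)) *
          ENNReal.ofReal ((3 * (k₀ * X) : ℝ) ^ (2 * θ))) * ∑' r : {r : ℕ // Powerful r},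
          ENNReal.ofReal (dv r ^ 2 * (r : ℝ) ^ (-1 / 2 - 3 / 2 * θ)) *
          ∫⁻ u in Ioi a, ENNReal.ofReal ((∑ m ∈ sqZ X, Uf m r u ^ 2) * u ^ (1 + 2 * θ)) := by
        rw [← Summable.tsum_finsetSum fun _ _ => ENNReal.summable]
        congr 1
        refine tsum_congr fun r => ?_
        rw [← Finset.mul_sum, hsum r]
    _ = _ := by
        congr 1
        have h16 : (16 : ℝ≥0∞) = ENNReal.ofReal 16 := by norm_num
        rw [h16, ← ENNReal.ofReal_mul (by norm_num), ← ENNReal.ofReal_mul (by positivity),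
          ← ENNReal.ofReal_mul (by positivity)]
        congr 1
        ring

end P004G
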